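import Vale.Agent.P275RL.Cd

/-!
# P275, Deligne extension in families: gluing of the chart data
-/

set_option linter.all false

open scoped Topology Real Matrix.Norms.Operator
open Filter Set Metric Complex
open Vale.Agent.P275GC (At)
open Vale.Agent.P275GC.At
open Vale.Agent.P275NA (Cy Fm Mn)
open Vale.Agent.P275MO Vale.Agent.P275MB Vale.Agent.P275RL
open Vale.Agent.P275RH (cwd)
open Vale.Agent.P275Z
open Vale.Agent.P281Z.Hm (an_det)

noncomputable section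

namespace Vale.Agent.P275GL

variable {C : Type} [TopologicalSpace C] {n g : ℕ} {A : At C} {l : Cy A ℂ} {d : ℤ}

theorem dv_congr {F F' : ℂ → Mn n} {w : ℂ} (e : F =ᶠ[𝓝 w] F') : deriv F w = deriv F' w := e.deriv_eq

theorem pf_div (hn : n ≠ 0) {a a' F F' : ℂ → Mn n} {u : ℂ → ℂ} {w : ℂ} (h : PF a F w)
    (h' : PF a' F' w) (d' : (F' w).det ≠ 0) (hu : AnalyticAt ℂ u w) (u0 : u w ≠ 0)
    (e : ∀ᶠ v in 𝓝 w, (F v).det = u v * (F' v).det) :
    AnalyticAt ℂ (fun v => F v * (F' v)⁻¹) w ∧ ∃ c : ℂ, a w * (F w * (F' w)⁻¹) +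
      deriv (fun v => F v * (F' v)⁻¹) w = F w * (F' w)⁻¹ * a' w + c • (F w * (F' w)⁻¹) := by
  have ne := det_near h'.cont d'
  obtain ⟨s, Φ, b1, b2, b3⟩ := h'
  have s0 : ∀ᶠ v in 𝓝 w, s v ≠ 0 := by
    filter_upwards [ne, b3] with v p q c
    exact p (by rw [q, c, Matrix.det_smul, Fintype.card_fin, zero_pow hn, zero_mul])
  have e1 : ∀ᶠ v in 𝓝 w, ((s v)⁻¹ • F v).det = u v * (Φ v).det := by
    filter_upwards [e, b3, s0] with v p q c
    rw [Matrix.det_smul, p, q, Matrix.det_smul, Fintype.card_fin, inv_pow, mul_left_comm,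
      inv_mul_cancel_left₀ (pow_ne_zero _ c)]
  have H := (h.smul (t := fun v => (s v)⁻¹) ((b1.and s0).mono fun v p => p.1.inv₀ p.2)).ph hn
    (by rw [e1.self_of_nhds]; exact mul_ne_zero u0 b2.det)
    ((hu.mul (an_det b2.an)).congr (e1.mono fun v p => p.symm))
  have e2 : (fun v => F v * (F' v)⁻¹) =ᶠ[𝓝 w] fun v => (s v)⁻¹ • F v * (Φ v)⁻¹ := by
    filter_upwards [b3, s0, b2.ev] with v q c p
    rw [q, Matrix.inv_eq_left_inv (B := (s v)⁻¹ • (Φ v)⁻¹) (by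
      rw [smul_mul_smul_comm, inv_mul' p.det, inv_mul_cancel₀ c, one_smul]), mul_smul_comm,
      smul_mul_assoc]
  refine ⟨(H.an.mul (an_inv b2.an b2.det)).congr e2.symm, ?_⟩
  obtain ⟨c, x⟩ := H.eq.self_of_nhds
  obtain ⟨c', x'⟩ := b2.eq.self_of_nhds
  refine ⟨c - c', ?_⟩
  have e3 : F w * (F' w)⁻¹ = (s w)⁻¹ • F w * (Φ w)⁻¹ := e2.self_of_nhds
  rw [dv_congr e2, e3, dmul H.an (an_inv b2.an b2.det), deriv_minv b2.an b2.det,
    eq_sub_of_add_eq x, eq_sub_of_add_eq x']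
  generalize (s w)⁻¹ • F w = Y
  simp only [mul_sub, sub_mul, mul_neg, mul_assoc, smul_mul_assoc, mul_smul_comm, mul_inv' b2.det,
    mul_one]
  module

variable {P : Loc A l g n d} {r : ℝ} {W : Set C} (D : ∀ j, Cd P r W j)

/-- the frames -/
def pp (x : C) (R : Mn n) (ρ : Tup g n) (k : P.ι) : Fm A (Mn n) := fun j w =>
  mf R ρ ((D j).S (x, w), (D j).Λ (x, w), (D j).B k (x, w))

/-- the gauges at the pole -/
def gm (x : C) (R : Mn n) : Fm A (Mn n) := fun j w => (D j).θ (x, w) • ex R ((D j).η (x, w))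

open Classical in
/-- the cocycle -/
def gg (x : C) (R : Mn n) (ρ : Tup g n) : Cy A (Mn n) := fun i j w =>
  if h : x ∈ P.V ∧ (A.e i).symm w ≠ x then
    pp D x R ρ (P.cy.cov ⟨(x, (A.e i).symm w), h⟩).choose i w *
      (pp D x R ρ (P.cy.cov ⟨(x, (A.e i).symm w), h⟩).choose j (A.tr i j w))⁻¹
  else gm D x R i (A.e i x) * (gm D x R j (A.e j x))⁻¹

/-- the object -/
def dt (x : C) (R : Mn n) (ρ : Tup g n) : Dat C A.N n :=
  ⟨1, x, gg D x R ρ, fun j w => (D j).α (x, w) • R, fun j => gm D x R j (A.e j x), R⟩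

/-- `y` has the pole `x` and the coordinate `w` in the chart `j` -/
structure Pt (r : ℝ) (W : Set C) (y : Wd P.V) (x : C) (j : Fin A.N) (w : ℂ) : Prop where
  x : y.1.1 = x
  w : A.e j y.1.2 = w
  mem : y.1.1 ∈ W
  inr : InR A r j y.1.2

variable {D} {x : C} {R : Mn n} {ρ : Tup g n} {y : Wd P.V} {i j : Fin A.N} {w w' : ℂ} {k m : P.ι}
  {h1 : 1 < r} {h2 : r ≤ A.R}

theorem pt_of (e : y.1 = (x, (A.e i).symm w)) (hx : x ∈ W) (hw : w ∈ (A.res r h1 h2).O i j) :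
    Pt r W y x i w ∧ Pt r W y x j (A.tr i j w) := by
  have b := (res_O.1 hw).1.1
  refine ⟨⟨?_, ?_, ?_, ?_⟩, ?_, ?_, ?_, ?_⟩ <;> rw [e]
  exacts [rinv b, hx, ⟨map_tgt b, by rw [rinv b]; exact hw.1⟩, rfl, hx, hw.2]

theorem Pt.coc (h : Pt r W y x j w) (hk : y ∈ P.U k) (hm : y ∈ P.U m) :
    pp D x R ρ m j w = pp D x R ρ k j w * wv ρ (P.c k m y) := by
  obtain ⟨rfl, rfl, a, b⟩ := h
  simp only [pp, mf, (D j).coc y k m a b hk hm, mul_inv_rev, wv_mul, smul_mul_assoc, mul_assoc,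
    wv_inv_mul, mul_one]

theorem Pt.det (h : Pt r W y x j w) (hR : R.trace = 0) : (pp D x R ρ k j w).det = P.u x j w := by
  obtain ⟨rfl, rfl, a, b⟩ := h
  rw [pp, mf, Matrix.det_smul, Matrix.det_mul, det_ex, hR, wv_det, mul_zero, exp_zero, mul_one,
    mul_one, Fintype.card_fin, (D j).pow y a b]

theorem Pt.ne (h : Pt r W y x j w) (hR : R.trace = 0) : (pp D x R ρ k j w).det ≠ 0 := by
  rw [h.det hR]
  obtain ⟨rfl, rfl, a, b⟩ := h
  exact P.un _ y.2.1 j _ ⟨map_src b.1, by rw [(A.e j).left_inv b.1]; exact y.2.2⟩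

theorem Pt.gg (h : Pt r W y x i w) (h' : Pt r W y x j w') (hk : y ∈ P.U k) :
    gg D x R ρ i j w = pp D x R ρ k i w * (pp D x R ρ k j w')⁻¹ := by
  have e : (A.e i).symm w = y.1.2 := by rw [← h.w, (A.e i).left_inv h.inr.1]
  have c : x ∈ P.V ∧ (A.e i).symm w ≠ x := by rw [e, ← h.x]; exact y.2
  have e' : (⟨(x, (A.e i).symm w), c⟩ : Wd P.V) = y := Subtype.ext (Prod.ext h.x.symm e)
  have hm := (P.cy.cov ⟨(x, (A.e i).symm w), c⟩).choose_spec
  have t : A.tr i j w = w' := by rw [At.tr, e, h'.w]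
  rw [P275GL.gg, dif_pos c, t]
  generalize (P.cy.cov ⟨(x, (A.e i).symm w), c⟩).choose = m at hm ⊢
  rw [e'] at hm
  rw [h.coc hk hm, h'.coc hk hm, Matrix.mul_inv_rev, mul_assoc, mul_inv_can (wv_det_ne _ _)]

theorem gg_at (e : (A.e i).symm w = x) :
    gg D x R ρ i j w = gm D x R i (A.e i x) * (gm D x R j (A.e j x))⁻¹ :=
  dif_neg fun c => c.2 e

theorem Pt.pf (h : Pt r W y x j w) (hk : y ∈ P.U k) (hρ : wv ρ (cwd g) = mon d R) :
    PF (fun v => (D j).α (x, v) • R) (pp D x R ρ k j) w := by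
  obtain ⟨rfl, rfl, a, b⟩ := h
  obtain ⟨s, ℓ, β, e⟩ := (D j).loc y k a b hk
  replace e := (Continuous.prodMk_right y.1.1).continuousAt.eventually e
  have hd : ∀ᶠ v in 𝓝 (A.e j y.1.2), HasDerivAt (fun v => ex R (-ℓ (y.1.1, v)))
      (-((D j).α (y.1.1, v) • R * ex R (-ℓ (y.1.1, v)))) v := e.mono fun v p =>
    ((ex_neg_der R _).scomp v p.2.2.1).congr_deriv (by rw [ex_comm, smul_neg, smul_mul_assoc])
  have ph : PH (fun v => (D j).α (y.1.1, v) • R) (fun v => ex R (-ℓ (y.1.1, v))) (A.e j y.1.2) :=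
    ⟨DifferentiableOn.analyticAt (fun _ hv => hv.differentiableAt.differentiableWithinAt) hd,
      ex_det_ne _ _, hd.mono fun v p => ⟨0, by rw [dv p, neg_add_cancel, zero_smul]⟩⟩
  exact ⟨fun v => s (y.1.1, v), _, e.mono fun v p =>
    ContinuousAt.comp (f := Prod.mk y.1.1) p.1 (Continuous.prodMk_right _).continuousAt,
    ph.mul (wv_det_ne ρ β⁻¹), e.mono fun v p => p.2.2.2.mf hρ⟩

theorem gm_det (hR : R.trace = 0) : (gm D x R j w).det = (D j).θ (x, w) ^ n := by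
  rw [gm, Matrix.det_smul, det_ex, hR, mul_zero, exp_zero, mul_one, Fintype.card_fin]

theorem gm_comm : gm D x R j w * R = R * gm D x R j w := by
  rw [gm, smul_mul_assoc, ex_comm, mul_smul_comm]

theorem mf_gm {q : ℂ × ℂ × Fg g} (θ η : ℂ) :
    mf R ρ (θ * q.1, q.2.1 - η, q.2.2) = (θ • ex R η) * mf R ρ q := by
  rw [mf, mf, smul_mul_smul_comm, ← mul_assoc, ← ex_add, neg_sub, sub_eq_add_neg η]

section fam

variable {T : Type} [TopologicalSpace T] {X : T → C} {Rt : T → Mn n} {ρt : T → Tup g n} {t : T}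

theorem cc {Y : Type} [TopologicalSpace Y] {u : C × ℂ → Y} (cX : Continuous X)
    (h : ContinuousAt u (X t, w)) : ContinuousAt (fun q : T × ℂ => u (X q.1, q.2)) (t, w) :=
  ContinuousAt.comp (f := fun q : T × ℂ => (X q.1, q.2)) h (by fun_prop)

theorem cs {Y : Type} [TopologicalSpace Y] {u : ℂ → Y} (h : ContinuousAt u w) :
    ContinuousAt (fun q : T × ℂ => u q.2) (t, w) :=
  ContinuousAt.comp (f := Prod.snd) h continuousAt_snd

theorem cf {Y : Type} [TopologicalSpace Y] {u : T → Y} (h : ContinuousAt u t) :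
    ContinuousAt (fun q : T × ℂ => u q.1) (t, w) :=
  ContinuousAt.comp (f := Prod.fst) h continuousAt_fst

theorem cx (cR : Continuous Rt) {u : T × ℂ → ℂ} (h : ContinuousAt u (t, w)) :
    ContinuousAt (fun q : T × ℂ => ex (Rt q.1) (u q)) (t, w) :=
  ContinuousAt.comp (f := fun q : T × ℂ => (Rt q.1, u q)) ex_cont.continuousAt
    ((cf cR.continuousAt).prodMk h)

theorem ct {u : T × ℂ → Mn n} (o : w ∈ A.O i j) (h : ContinuousAt u (t, A.tr i j w))
    (h0 : (u (t, A.tr i j w)).det ≠ 0) :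
    ContinuousAt (fun q : T × ℂ => (u (q.1, A.tr i j q.2))⁻¹) (t, w) :=
  ContinuousAt.comp (f := fun q : T × ℂ => u (q.1, A.tr i j q.2)) (ca_inv h0)
    (ContinuousAt.comp (f := fun q : T × ℂ => (q.1, A.tr i j q.2)) h
      (continuousAt_fst.prodMk (cs (an_tr o).continuousAt)))

theorem ev_U [T2Space C] {Y : Type} [TopologicalSpace Y] {f : Y → C × C} {a : Y}
    (hf : ContinuousAt f a) (e : y.1 = f a) (hk : y ∈ P.U k) : ∀ᶠ b in 𝓝 a, ∃ y' ∈ P.U k, y'.1 = f b :=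
  hf.eventually ((IsOpen.isOpenMap_subtype_val ((P.opn.preimage continuous_fst).inter
    (isOpen_ne_fun continuous_snd continuous_fst)) _ (P.cy.opn k)).mem_nhds ⟨y, hk, e⟩)

theorem Pt.cont (cX : Continuous X) (cR : Continuous Rt) (cρ : Continuous ρt)
    (hρ : ∀ t, wv (ρt t) (cwd g) = mon d (Rt t)) (h : Pt r W y (X t) j w) (hk : y ∈ P.U k) :
    ContinuousAt (fun q : T × ℂ => pp D (X q.1) (Rt q.1) (ρt q.1) k j q.2) (t, w) := by
  obtain ⟨s, ℓ, β, e⟩ := (D j).loc y k h.mem h.inr hk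
  rw [h.x, h.w] at e
  have c : ContinuousAt (fun q : T × ℂ => (X q.1, q.2)) (t, w) := by fun_prop
  refine ContinuousAt.congr (f := fun q => s (X q.1, q.2) • (ex (Rt q.1) (-ℓ (X q.1, q.2)) *
    wv (ρt q.1) β⁻¹)) ((cc cX e.self_of_nhds.1).smul ((cx cR (cc cX e.self_of_nhds.2.1).neg).mul
      (cf ((wv_cont _).comp cρ).continuousAt))) ?_
  exact (c.eventually e).mono fun q p => (p.2.2.2.mf (hρ q.1)).symm

theorem gg_ev [T2Space C] (hW : IsOpen W) (cX : Continuous X) (hx : X t ∈ W)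
    (hw : w ∈ (A.res r h1 h2).O i j) (e : y.1 = (X t, (A.e i).symm w)) (hk : y ∈ P.U k) :
    ∀ᶠ q : T × ℂ in 𝓝 (t, w), ∃ y' ∈ P.U k, Pt r W y' (X q.1) i q.2 ∧
      Pt r W y' (X q.1) j (A.tr i j q.2) := by
  have c : ContinuousAt (fun q : T × ℂ => (X q.1, (A.e i).symm q.2)) (t, w) :=
    (cf cX.continuousAt).prodMk (cs (contAt_symm (res_O.1 hw).1.1))
  filter_upwards [ev_U c e hk, (cX.comp continuous_fst).continuousAt.eventually (hW.mem_nhds hx),
    continuousAt_snd.eventually (O_nhds hw)] with q ⟨y', a, b⟩ p s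
  exact ⟨y', a, pt_of b p s⟩

theorem gg_pole (hW : IsOpen W) (hV : W ⊆ P.V) (cX : Continuous X) (hR : ∀ t, (Rt t).trace = 0)
    (hρ : ∀ t, wv (ρt t) (cwd g) = mon d (Rt t)) (hx : X t ∈ W) (hi : InR A r i (X t))
    (hj : InR A r j (X t)) (h1 : 1 < r) (h2 : r ≤ A.R) :
    ∀ᶠ q : T × ℂ in 𝓝 (t, A.e i (X t)), gg D (X q.1) (Rt q.1) (ρt q.1) i j q.2 =
      gm D (X q.1) (Rt q.1) i q.2 * (gm D (X q.1) (Rt q.1) j (A.tr i j q.2))⁻¹ := by
  have hw : A.e i (X t) ∈ (A.res r h1 h2).O i j := mem_O (A := A.res r h1 h2) hi hj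
  have c : ContinuousAt (fun q : T × ℂ => (X q.1, q.2)) (t, A.e i (X t)) := by fun_prop
  have c' : Tendsto (fun q : T × ℂ => (X q.1, A.tr i j q.2)) (𝓝 (t, A.e i (X t)))
      (𝓝 (X t, A.e j (X t))) := by
    rw [← tr_e (j := j) hi.1]
    exact (cf cX.continuousAt).prodMk (cs (an_tr (res_O.1 hw).1).continuousAt)
  filter_upwards [c.eventually ((D i).pole (((D i).src _ hx).2 hi) _ hx),
    c'.eventually ((D j).pole (((D j).src _ hx).2 hj) _ hx),
    (cX.comp continuous_fst).continuousAt.eventually (hW.mem_nhds hx),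
    continuousAt_snd.eventually (O_nhds hw)] with q a b p s
  have o := (res_O.1 s).1
  by_cases e : (A.e i).symm q.2 = X q.1
  · rw [gg_at e, ← e, rinv o.1, At.tr]
  let y : Wd P.V := ⟨(X q.1, (A.e i).symm q.2), hV p, e⟩
  obtain ⟨k, hk⟩ := P.cy.cov y
  obtain ⟨u, v⟩ := pt_of (y := y) rfl p s
  obtain ⟨q1, e1, f1⟩ := a.2.2.2.2.2 y k rfl hk
  obtain ⟨q2, e2, f2⟩ := b.2.2.2.2.2 y k (by rw [symm_tr o]) hk
  have g1 := (f1.mf (hρ q.1)).trans (mf_gm (q := (P.s q1, q1.1.2, P.b k q1)) _ _)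
  have g2 := (f2.mf (hρ q.1)).trans (mf_gm (q := (P.s q2, q2.1.2, P.b k q2)) _ _)
  rw [← (P.eqv (e1.trans e2.symm) (e1 ▸ hk)).mf (hρ q.1)] at g2
  have n0 := u.ne (D := D) (ρ := ρt q.1) (k := k) (hR q.1)
  rw [u.gg v hk]
  rw [pp, g1, Matrix.det_mul] at n0
  rw [pp, g1, pp, g2, Matrix.mul_inv_rev, mul_assoc, mul_inv_can (right_ne_zero_of_mul n0)]
  rfl

end fam

theorem l_a (hl : A.Cc l) (hx : x ∈ P.V) (hi : x ∈ (A.e i).source) : l i P.a (A.e i x) ≠ 0 :=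
  hl.ne (mem_O hi (P.sub x hx).1)

theorem sg_det (hx : x ∈ W) (hi : InR A r i x) (hR : R.trace = 0) :
    (gm D x R i (A.e i x)).det = l i P.a (A.e i x) :=
  (gm_det hR).trans ((D i).pole (((D i).src _ hx).2 hi) _ hx).self_of_nhds.2.2.2.2.1

theorem gm_an (hx : x ∈ W) (hi : InR A r i x) : AnalyticAt ℂ (gm D x R i) (A.e i x) :=
  have h := ((D i).pole (((D i).src _ hx).2 hi) _ hx).self_of_nhds
  h.2.2.1.smul (ex_an analyticAt_const h.2.2.2.1)

theorem sg_ne (hl : A.Cc l) (hV : W ⊆ P.V) (hx : x ∈ W) (hR : R.trace = 0) (hi : InR A r i x) :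
    (gm D x R i (A.e i x)).det ≠ 0 := by
  rw [sg_det hx hi hR]; exact l_a hl (hV hx) hi.1

theorem ex_pt (hV : W ⊆ P.V) (hx : x ∈ W) (hw : w ∈ (A.res r h1 h2).O i j) (e : (A.e i).symm w ≠ x) :
    ∃ (y : Wd P.V) (k : P.ι), y ∈ P.U k ∧ y.1 = (x, (A.e i).symm w) ∧ Pt r W y x i w ∧
      Pt r W y x j (A.tr i j w) := by
  obtain ⟨k, hk⟩ := P.cy.cov ⟨(x, (A.e i).symm w), hV hx, e⟩
  exact ⟨_, k, hk, rfl, pt_of rfl hx hw⟩

theorem at_pole (hw : w ∈ (A.res r h1 h2).O i j) (e : (A.e i).symm w = x) :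
    InR A r i x ∧ InR A r j x ∧ A.e i x = w := by
  have b : w ∈ ball (0 : ℂ) A.R := (res_O.1 hw).1.1
  subst e
  exact ⟨⟨map_tgt b, by rw [rinv b]; exact hw.1⟩, hw.2, rinv b⟩

theorem gg_off (S : Std A l n d) (hW : IsOpen W) (hV : W ⊆ P.V) (hx : x ∈ W) (hR : R.trace = 0)
    (hρ : wv ρ (cwd g) = mon d R) (hw : w ∈ (A.res r h1 h2).O i j) (e : (A.e i).symm w ≠ x) :
    AnalyticAt ℂ (gg D x R ρ i j) w ∧ ∃ c : ℂ, (D i).α (x, w) • R * gg D x R ρ i j w +
      (1 : ℂ) • deriv (gg D x R ρ i j) w = A.d i j w • (gg D x R ρ i j w *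
        (D j).α (x, A.tr i j w) • R) + c • gg D x R ρ i j w := by
  have := S.t2
  obtain ⟨y, k, hk, ey, u, v⟩ := ex_pt hV hx hw e
  have o : w ∈ A.O i j := (res_O.1 hw).1
  have ev := (Continuous.prodMk_right ()).continuousAt.eventually
    (gg_ev (X := fun _ : Unit => x) (t := ()) hW continuous_const hx hw ey hk)
  have eq : gg D x R ρ i j =ᶠ[𝓝 w] fun v => pp D x R ρ k i v * (pp D x R ρ k j (A.tr i j v))⁻¹ :=
    ev.mono fun v ⟨y', a, b, c⟩ => b.gg c a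
  obtain ⟨an, c, law⟩ := pf_div (two_pos.trans_le S.two).ne' (u.pf (D := D) hk hρ)
    ((v.pf (D := D) hk hρ).comp (an_tr o)) (v.ne hR) (S.cc.an o) (S.cc.ne o) (by
      filter_upwards [ev, O_nhds o] with v ⟨y', a, b, c⟩ p
      rw [b.det hR, c.det hR]
      refine P.ul x (hV hx) i j v p ?_
      rw [← b.w, (A.e i).left_inv b.inr.1]
      exact fun e => y'.2.2 (e.trans b.x.symm))
  refine ⟨an.congr eq.symm, c, ?_⟩
  rw [one_smul, dv_congr eq, eq.self_of_nhds, law, mul_smul_comm (deriv _ _)]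
  rfl

theorem gg_an (S : Std A l n d) (hW : IsOpen W) (hV : W ⊆ P.V) (hx : x ∈ W) (hR : R.trace = 0)
    (hρ : wv ρ (cwd g) = mon d R) (hw : w ∈ (A.res r h1 h2).O i j) :
    AnalyticAt ℂ (gg D x R ρ i j) w := by
  by_cases e : (A.e i).symm w = x
  swap
  · exact (gg_off S hW hV hx hR hρ hw e).1
  obtain ⟨a, b, rfl⟩ := at_pole hw e
  have o : A.e i x ∈ A.O i j := (res_O.1 hw).1
  have c := gm_an (D := D) (R := R) hx b
  rw [← tr_e (j := j) a.1] at c
  refine ((gm_an (D := D) (R := R) hx a).mul (an_inv (Φ := fun v => gm D x R j (A.tr i j v)) (c.comp (an_tr o))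
    (by rw [tr_e a.1]; exact sg_ne S.cc hV hx hR b))).congr (EventuallyEq.symm ?_)
  exact (Continuous.prodMk_right ()).continuousAt.eventually (gg_pole (X := fun _ : Unit => x)
    (Rt := fun _ => R) (ρt := fun _ => ρ) (t := ()) hW hV continuous_const (fun _ => hR)
    (fun _ => hρ) hx a b h1 h2)

theorem gg_mul (S : Std A l n d) (hV : W ⊆ P.V) (hx : x ∈ W) (hR : R.trace = 0) {k : Fin A.N}
    (p : w ∈ (A.res r h1 h2).O i j) (q : w ∈ (A.res r h1 h2).O i k) :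
    gg D x R ρ i k w = gg D x R ρ i j w * gg D x R ρ j k (A.tr i j w) := by
  have o : w ∈ A.O i j := (res_O.1 p).1
  by_cases e : (A.e i).symm w = x
  · rw [gg_at e, gg_at e, gg_at ((symm_tr o).trans e), mul_assoc,
      inv_mul_can (sg_ne S.cc hV hx hR (at_pole p e).2.1)]
  obtain ⟨y, m, hm, ey, u, v⟩ := ex_pt hV hx p e
  have v' := (pt_of ey hx q).2
  rw [u.gg v' hm, u.gg v hm, v.gg v' hm, mul_assoc, inv_mul_can (v.ne hR)]

theorem gg_det (S : Std A l n d) (hV : W ⊆ P.V) (hx : x ∈ W) (hR : R.trace = 0)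
    (hw : w ∈ (A.res r h1 h2).O i j) : (gg D x R ρ i j w).det = l i j w := by
  have o : w ∈ A.O i j := (res_O.1 hw).1
  by_cases e : (A.e i).symm w = x
  · obtain ⟨a, b, rfl⟩ := at_pole hw e
    rw [gg_at e, Matrix.det_mul, Matrix.det_nonsing_inv, Ring.inverse_eq_inv', sg_det hx a hR,
      sg_det hx b hR, S.cc.mul i j P.a _ o (mem_O a.1 (P.sub x (hV hx)).1), tr_e a.1,
      mul_inv_cancel_right₀ (l_a S.cc (hV hx) b.1)]
  obtain ⟨y, k, hk, -, u, v⟩ := ex_pt hV hx hw e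
  have n0 := v.ne (D := D) (ρ := ρ) (k := k) hR
  rw [u.gg v hk, Matrix.det_mul, Matrix.det_nonsing_inv, Ring.inverse_eq_inv', u.det hR,
    P.ul x (hV hx) i j w o e, ← v.det hR, mul_inv_cancel_right₀ n0]

theorem good (S : Std A l n d) (hW : IsOpen W) (hV : W ⊆ P.V) (hx : x ∈ W) (hR : R.trace = 0)
    (hρ : wv ρ (cwd g) = mon d R) : Good (A.res r h1 h2) l (dt (A := A) D x R ρ) := by
  have s0 := fun i => sg_ne (D := D) (i := i) S.cc hV hx hR
  refine ⟨⟨fun i j w hw => (gg_an S hW hV hx hR hρ hw).differentiableAt.differentiableWithinAt,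
    fun (i : Fin A.N) w hw => ?_, fun i j k w p q => gg_mul S hV hx hR p q⟩,
    fun i j w hw => gg_det S hV hx hR hw, fun (i : Fin A.N) w hw => ?_,
    fun i w _ => (Matrix.trace_smul _ _).trans (by rw [hR, smul_zero]),
    fun i j w hw e => (gg_off S hW hV hx hR hρ hw e).2, s0, fun (i j : Fin A.N) p q => ?_,
    fun (i : Fin A.N) p => ?_⟩
  · have o := O_self (A := A.res r h1 h2) (i := i) hw
    by_cases e : (A.e i).symm w = x
    · exact (gg_at e).trans (mul_inv' (s0 i (at_pole o e).1))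
    obtain ⟨y, k, hk, -, u, -⟩ := ex_pt hV hx o e
    exact (u.gg u hk).trans (mul_inv' (u.ne hR))
  · show DifferentiableWithinAt ℂ (fun w => (D i).α (x, w) • R) _ w
    by_cases c : (D i).II
    · have hi : x ∈ ((A.res r h1 h2).e i).source := ((D i).src _ hx).1 c
      simp only [(D i).α1 c]
      exact ((DifferentiableAt.inv (h := fun w => w - A.e i x) (differentiableAt_id.sub_const _)
        (sub_ne_zero.2 ((off_iff hi).1 hw).2)).smul_const R).differentiableWithinAt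
    · simp only [(D i).α0 c]
      exact differentiableWithinAt_const _
  · show gm D x R i (A.e i x) = gg D x R ρ i j (A.e i x) * gm D x R j (A.e j x)
    rw [gg_at (x := x) ((A.e i).left_inv p.1), mul_assoc, inv_mul' (s0 j q), mul_one]
  · have c := ((D i).src _ hx).2 p
    show Tendsto (fun w => (w - A.e i x) • (D i).α (x, w) • R) (𝓝[≠] (A.e i x))
      (𝓝 (gm D x R i (A.e i x) * R * (gm D x R i (A.e i x))⁻¹))
    rw [gm_comm, mul_assoc, mul_inv' (s0 i p), mul_one]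
    refine tendsto_const_nhds.congr' (eventually_mem_nhdsWithin.mono fun v hv => ?_)
    simp only [(D i).α1 c]
    exact (smul_inv_smul₀ (sub_ne_zero.2 hv) _).symm

theorem rel (S : Std A l n d) (hW : IsOpen W) (hV : W ⊆ P.V) (hx : x ∈ W) (hR : R.trace = 0)
    (hρ : wv ρ (cwd g) = mon d R) (hg : Gen d R) (h1 : 1 < r) (h2 : r ≤ A.R) :
    Rel P (dt D x R ρ) ρ := by
  have pt : ∀ (y : P275ST.Pc x) j, InU A j y → Pt r W (fib (hV hx) y) x j (A.e j y) :=
    fun y j hj => ⟨rfl, rfl, hx, hj.1, unit_r h1 hj.2⟩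
  have ia : InR A r P.a x := ⟨(P.inU (hV hx)).1, unit_r h1 (P.inU (hV hx)).2⟩
  obtain ⟨n1, n2⟩ := (D P.a).nrm rfl
  have s1 : gm D x R P.a (A.e P.a x) = 1 := by simp [gm, n1]
  refine ⟨⟨⟨r, h1, h2, good S hW hV hx hR hρ⟩, rfl, hg⟩, hV hx, pp D x R ρ,
    ⟨fun y k j hk hj => (pt y j hj).pf hk hρ, fun y k j _ hj => (pt y j hj).det hR,
      fun y k j j' hk hj hj' => ?_, fun y k m j hk hm hj => (pt y j hj).coc hk hm⟩, fun _ => 1,
    ⟨⟨differentiableOn_const _, fun v hv => ?_⟩, s1.symm⟩, fun q k e hk => ⟨P.s q, ?_⟩⟩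
  · exact ((congrArg (· * _) ((pt y j hj).gg (pt y j' hj') hk)).trans (by
      rw [mul_assoc, inv_mul' ((pt y j' hj').ne hR), mul_one])).symm
  · rw [deriv_const, smul_zero, zero_add, mul_one, one_mul]
    by_cases e : (A.e P.a).symm v = x
    · exact (if_pos e).trans (by simp [dt, s1])
    · rw [fill_off e]
      simp only [dt, (D P.a).α1 (((D P.a).src _ hx).2 ia)]
      exact smul_inv_smul₀ (sub_ne_zero.2 fun c => e (by rw [c, (A.e P.a).left_inv ia.1])) _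
  · have e' : q.1.1 = x := e
    have := (n2 q k (x, A.e P.a x + exp q.1.2) (e' ▸ hx) hk (by rw [e'])).mf hρ
    show pp D x R ρ k P.a (A.e P.a x + exp q.1.2) * _ = _ • (1 * ex R _)
    rw [pp, this, mf, smul_mul_assoc, mul_assoc, wv_inv_mul, mul_one, one_mul]

section fam

variable {T : Type} [TopologicalSpace T] {X : T → C} {Rt : T → Mn n} {ρt : T → Tup g n} {t : T}

theorem gm_cont (cX : Continuous X) (cR : Continuous Rt) (hx : X t ∈ W) (hi : InR A r i (X t)) :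
    ContinuousAt (fun q : T × ℂ => gm D (X q.1) (Rt q.1) i q.2) (t, A.e i (X t)) :=
  have e := ((D i).pole (((D i).src _ hx).2 hi) _ hx).self_of_nhds
  (cc cX e.1).smul (cx cR (cc cX e.2.1))

theorem gg_cont (S : Std A l n d) (hW : IsOpen W) (hV : W ⊆ P.V) (cX : Continuous X)
    (cR : Continuous Rt) (cρ : Continuous ρt) (hR : ∀ t, (Rt t).trace = 0)
    (hρ : ∀ t, wv (ρt t) (cwd g) = mon d (Rt t)) (hx : X t ∈ W) (hw : w ∈ (A.res r h1 h2).O i j) :
    ContinuousAt (fun q : T × ℂ => gg D (X q.1) (Rt q.1) (ρt q.1) i j q.2) (t, w) := by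
  have := S.t2
  have o : w ∈ A.O i j := (res_O.1 hw).1
  by_cases e : (A.e i).symm w = X t
  · obtain ⟨a, b, rfl⟩ := at_pole hw e
    have c := gm_cont (D := D) cX cR hx b
    rw [← tr_e (j := j) a.1] at c
    refine ((gm_cont (D := D) cX cR hx a).mul (ct o c ?_)).congr (EventuallyEq.symm
      (gg_pole hW hV cX hR hρ hx a b h1 h2))
    rw [tr_e a.1]
    exact sg_ne S.cc hV hx (hR t) b
  obtain ⟨y, k, hk, ey, u, v⟩ := ex_pt hV hx hw e
  exact ((u.cont (D := D) cX cR cρ hρ hk).mul (ct o (v.cont (D := D) cX cR cρ hρ hk)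
    (v.ne (hR t)))).congr ((gg_ev hW cX hx hw ey hk).mono fun q ⟨y', a, b, c⟩ => (b.gg c a).symm)

end fam

/-- **GLUE** -/
theorem glue (S : Std A l n d) (P : Loc A l g n d) : GLUE P := by
  intro r h1 h2 W hW hV hD T _ X R ρ cX cR cρ h
  have D := fun j => (hD j).some
  have ce : ∀ i t, X t ∈ (A.e i).source → ContinuousAt (fun t => A.e i (X t)) t := fun i t hi =>
    ((A.e i).continuousAt hi).comp cX.continuousAt
  refine ⟨fun t => dt D (X t) (R t) (ρ t), ⟨fun t hx => good S hW hV hx (h t).1 (h t).2.2,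
    continuousOn_const, cX.continuousOn, cR.continuousOn, fun i j ⟨t, w⟩ ⟨hx, hw⟩ =>
      (gg_cont S hW hV cX cR cρ (fun t => (h t).1) (fun t => (h t).2.2) hx hw).continuousWithinAt,
      fun (i : Fin A.N) => ?_, fun i t ⟨hx, hi⟩ => (ContinuousAt.comp
        (f := fun t => (t, A.e i (X t))) (gm_cont cX cR hx hi)
        (continuousAt_id.prodMk (ce i t hi.1))).continuousWithinAt⟩,
    fun t hx => ⟨rfl, rfl, rel S hW hV hx (h t).1 (h t).2.2 (h t).2.1 h1 h2⟩⟩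
  show ContinuousOn (fun q : T × ℂ => (D i).α (X q.1, q.2) • R q.1) _
  by_cases c : (D i).II
  · rintro ⟨t, w⟩ ⟨hx, hw⟩
    have hi : X t ∈ ((A.res r h1 h2).e i).source := ((D i).src _ hx).1 c
    simp only [(D i).α1 c]
    exact (((continuousAt_snd.sub (cf (ce i t hi.1))).inv₀
      (sub_ne_zero.2 ((off_iff hi).1 hw).2)).smul (cf cR.continuousAt)).continuousWithinAt
  · simp only [(D i).α0 c, zero_smul]
    exact continuousOn_const

end Vale.Agent.P275GL
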